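import Crest.Agent.R73.Defs
import Crest.Prelude.Def_CStarEmbedding
import Crest.Agent.R194.Hil

/-!
# Row 73: the completely positive approximation property of `O₂` (task R73-Nuc)

PLAN.  Model: `L = ℓ²(ℤ × ℕ)`, `S b δ_(j,n) = δ_(j+1, 2n+b)`; universal property gives
`Φ : O →⋆ₐ B(L)`; for words `μ : List Bool`, `s_μ = (μ.map s).prod`, the vectors `Φ s_μ δ_(0,0)` are
distinct basis vectors, so orthonormal.  `ω x = ⟪Ω, Φ x Ω⟫`.  `W N` = words of length `< N`,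
`θ l l' x = ∑_{|μ|=l,|ν|=l'} ω (s_μ⋆ x s_ν) • π s_μ * π s_ν⋆`, `Θ N x = N⁻¹ ∑_{l,l' < N} θ l l' x`.
Tensor lemma: for an orthonormal family `δ`, `T : L →L L`, finsets `A, B` and vectors `a μ, b ν ∈ K`:
`‖∑_{μ∈A,ν∈B} ⟪δ μ, T (δ ν)⟫ ⟪a μ, b ν⟫‖ ≤ ‖T‖ √(∑‖a μ‖²) √(∑‖b ν‖²)` (expand in an orthonormal
basis of the span of the `a μ, b ν`).  With `∑_{|μ|=l} ‖π s_μ⋆ a‖² = ‖a‖²` this gives
`‖Θ N x‖ ≤ ‖x‖` and `‖∑_{l'<N} θ l l' x‖ ≤ √N ‖x‖`.  `θ (l+1) l' (s_b x) = π s_b * θ l l' x`,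
`π s_b⋆ * θ (l+1) l' x = θ l l' (s_b⋆ x)`, `Θ N 1 = 1`.  So the set of `x` with
`‖Θ N x - π x‖ → 0` is a closed subspace containing `1` and stable under left multiplication by
`s_b, s_b⋆` (boundary terms are `O(N^{-1/2})`), so it is everything.
Output: `W = ↥(W N)`, `r μ = N^{-1/2} • π s_μ⋆`, `φ x = V⋆ Φ x V` with `V` the isometry
`single μ 1 ↦ Φ s_μ Ω`.
-/

set_option autoImplicit false

namespace Crest.Agent.R73

open Filter Topology Finset
open scoped InnerProductSpace commutatorElement ComplexConjugate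

namespace Nuc

open Crest.Agent.R194

/-! ### the tensor lemma -/

theorem gram {K : Type*} [NormedAddCommGroup K] [InnerProductSpace ℂ K] {s : Set K}
    (hs : s.Finite) : ∃ (n : ℕ) (e : Fin n → K),
      ∀ u ∈ s, ∀ u' ∈ s, ∑ t, ⟪u, e t⟫_ℂ * ⟪e t, u'⟫_ℂ = ⟪u, u'⟫_ℂ := by
  let S := Submodule.span ℂ s
  have : FiniteDimensional ℂ S := FiniteDimensional.span_of_finite ℂ hs
  let b := stdOrthonormalBasis ℂ S
  exact ⟨_, fun t => b t, fun u hu u' hu' =>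
    b.sum_inner_mul_inner ⟨u, Submodule.subset_span hu⟩ ⟨u', Submodule.subset_span hu'⟩⟩

theorem tensor_le {K L J : Type*} [NormedAddCommGroup K] [InnerProductSpace ℂ K]
    [NormedAddCommGroup L] [InnerProductSpace ℂ L] {δ : J → L} (hδ : Orthonormal ℂ δ)
    (T : L →L[ℂ] L) (A B : Finset J) (a b : J → K) :
    ‖∑ μ ∈ A, ∑ ν ∈ B, ⟪δ μ, T (δ ν)⟫_ℂ * ⟪a μ, b ν⟫_ℂ‖ ≤
      ‖T‖ * (√(∑ μ ∈ A, ‖a μ‖ ^ 2) * √(∑ ν ∈ B, ‖b ν‖ ^ 2)) := by
  obtain ⟨n, e, he⟩ := gram ((A.finite_toSet.image a).union (B.finite_toSet.image b))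
  have hn : ∀ (C : Finset J) (c : J → K), (∀ μ ∈ C, c μ ∈ a '' A ∪ b '' B) →
      ∑ t, ‖∑ μ ∈ C, ⟪e t, c μ⟫_ℂ • δ μ‖ ^ 2 = ∑ μ ∈ C, ‖c μ‖ ^ 2 := by
    intro C c hc
    simp only [norm_sq_sum_orthonormal hδ]
    rw [sum_comm]
    refine sum_congr rfl fun μ hμ => ?_
    have := he _ (hc μ hμ) _ (hc μ hμ)
    simp only [← inner_conj_symm (c μ) (e _), Complex.conj_mul', inner_self_eq_norm_sq_to_K] at this
    apply Complex.ofReal_injective
    push_cast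
    exact this
  have h1 : ∑ μ ∈ A, ∑ ν ∈ B, ⟪δ μ, T (δ ν)⟫_ℂ * ⟪a μ, b ν⟫_ℂ =
      ∑ t, ⟪∑ μ ∈ A, ⟪e t, a μ⟫_ℂ • δ μ, T (∑ ν ∈ B, ⟪e t, b ν⟫_ℂ • δ ν)⟫_ℂ := by
    simp only [map_sum, map_smul, sum_inner, inner_sum, inner_smul_left, inner_smul_right,
      inner_conj_symm, mul_sum]
    rw [sum_comm, eq_comm, sum_comm]
    refine sum_congr rfl fun ν hν => ?_
    rw [sum_comm]
    refine sum_congr rfl fun μ hμ => ?_
    rw [← he _ (Or.inl ⟨μ, hμ, rfl⟩) _ (Or.inr ⟨ν, hν, rfl⟩), mul_sum]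
    exact sum_congr rfl fun t _ => by ring
  rw [h1, ← hn A a fun μ hμ => Or.inl ⟨μ, hμ, rfl⟩, ← hn B b fun μ hμ => Or.inr ⟨μ, hμ, rfl⟩]
  refine (norm_sum_le _ _).trans (le_trans ?_
    (mul_le_mul_of_nonneg_left (Real.sum_mul_le_sqrt_mul_sqrt _ _ _) (norm_nonneg _)))
  rw [mul_sum]
  refine sum_le_sum fun t _ => (norm_inner_le_norm _ _).trans ?_
  rw [mul_left_comm]
  exact mul_le_mul_of_nonneg_left (T.le_opNorm _) (norm_nonneg _)

/-! ### words -/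

/-- words of length `l` -/
def Wd : ℕ → Finset (List Bool)
  | 0 => {[]}
  | l + 1 => (univ ×ˢ Wd l).map ⟨fun x => x.1 :: x.2, fun x y h => by
      simp only [List.cons.injEq] at h; exact Prod.ext h.1 h.2⟩

theorem sum_Wd_succ {M : Type*} [AddCommMonoid M] (l : ℕ) (f : List Bool → M) :
    ∑ μ ∈ Wd (l + 1), f μ = ∑ b, ∑ μ ∈ Wd l, f (b :: μ) := by
  rw [Wd, sum_map, sum_product]; rfl

theorem length_Wd : ∀ l, ∀ μ ∈ Wd l, μ.length = l
  | 0, μ, h => by simpa [Wd] using h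
  | l + 1, μ, h => by
    obtain ⟨x, hx, rfl⟩ := mem_map.1 h
    exact congrArg (· + 1) (length_Wd l _ (mem_product.1 hx).2)

/-- words of length `< N` -/
def WN (N : ℕ) : Finset (List Bool) := (range N).biUnion Wd

theorem sum_WN {M : Type*} [AddCommMonoid M] (N : ℕ) (f : List Bool → M) :
    ∑ μ ∈ WN N, f μ = ∑ l ∈ range N, ∑ μ ∈ Wd l, f μ :=
  sum_biUnion fun _ _ _ _ h => disjoint_left.2 fun _ h1 h2 =>
    h ((length_Wd _ _ h1).symm.trans (length_Wd _ _ h2))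

/-! ### the model -/

/-- the branches -/
def br (b : Bool) (i : ℤ × ℕ) : ℤ × ℕ := (i.1 + 1, 2 * i.2 + b.toNat)

theorem br_inj {b b' : Bool} {i i' : ℤ × ℕ} (h : br b i = br b' i') : b = b' ∧ i = i' := by
  simp only [br, Prod.mk.injEq] at h
  cases b <;> cases b' <;> simp only [Bool.toNat_false, Bool.toNat_true] at h <;>
    first
    | exact ⟨rfl, Prod.ext (by omega) (by omega)⟩
    | omega

theorem br_surj (i : ℤ × ℕ) : ∃ b i', br b i' = i := by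
  rcases Nat.even_or_odd' i.2 with ⟨n, h | h⟩
  · exact ⟨false, (i.1 - 1, n), Prod.ext (by simp [br]) (by simp [br, h])⟩
  · exact ⟨true, (i.1 - 1, n), Prod.ext (by simp [br]) (by simp [br, h])⟩

/-- the position of a word -/
def pos : List Bool → ℤ × ℕ
  | [] => (0, 0)
  | b :: μ => br b (pos μ)

theorem pos_fst : ∀ μ, (pos μ).1 = μ.length
  | [] => rfl
  | b :: μ => by simp [pos, br, pos_fst μ]

theorem pos_inj : ∀ μ ν, pos μ = pos ν → μ = ν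
  | [], [], _ => rfl
  | [], b :: ν, h => by
    have := congrArg Prod.fst h
    rw [pos_fst, pos_fst] at this
    simp at this; omega
  | b :: μ, [], h => by
    have := congrArg Prod.fst h
    rw [pos_fst, pos_fst] at this
    simp at this; omega
  | b :: μ, c :: ν, h => by
    obtain ⟨h1, h2⟩ := br_inj h
    rw [h1, pos_inj μ ν h2]

/-- the model space -/
abbrev LL : Type := lp (fun _ : ℤ × ℕ => ℂ) 2

theorem exists_model : ∃ S : Bool → LL →L[ℂ] LL,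
    (∀ b i, S b (stdBasis _ i) = stdBasis _ (br b i)) ∧ (∀ b, star (S b) * S b = 1) ∧
      S false * star (S false) + S true * star (S true) = 1 := by
  classical
  have ho := (stdBasis (ℤ × ℕ)).orthonormal
  choose S hS _ using fun b => exists_synth_orth (stdBasis (ℤ × ℕ))
    (fun i => stdBasis (ℤ × ℕ) (br b i)) 1 zero_le_one
    (fun i j hij => ho.2 fun h => hij (br_inj h).2) (fun i => (ho.1 _).le)
  have key : ∀ b c, star (S b) * S c = if b = c then 1 else 0 := by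
    intro b c
    refine ext_basis (stdBasis _) fun i => vec_ext_basis (stdBasis _) fun j => ?_
    rw [mul_apply_eq_comp, ContinuousLinearMap.star_eq_adjoint,
      ContinuousLinearMap.adjoint_inner_right, hS, hS, orthonormal_iff_ite.1 ho]
    by_cases hbc : b = c
    · subst hbc
      rw [if_pos rfl, one_apply_eq_self, orthonormal_iff_ite.1 ho]
      exact if_congr ⟨fun h => (br_inj h).2, fun h => by rw [h]⟩ rfl rfl
    · rw [if_neg hbc, if_neg fun h => hbc (br_inj h).1]; simp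
  refine ⟨S, hS, fun b => by simp [key], ext_basis (stdBasis _) fun i => ?_⟩
  obtain ⟨b, i', rfl⟩ := br_surj i
  have : (S false * star (S false) + S true * star (S true)) * S b = S b := by
    rw [add_mul, mul_assoc, mul_assoc, key, key]
    cases b <;> simp
  rw [← hS, one_apply_eq_self, ← mul_apply_eq_comp, this]

/-- the data used in the approximation -/
structure Dat {O : Type} [CStarAlgebra O] (s : Bool → O) (Φ : O →⋆ₐ[ℂ] (LL →L[ℂ] LL))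
    (δ : List Bool → LL) : Prop where
  rel : ∀ b c, star (s b) * s c = if b = c then 1 else 0
  sum : ∑ b, s b * star (s b) = 1
  orth : Orthonormal ℂ δ
  cons : ∀ b μ, δ (b :: μ) = Φ (s b) (δ μ)

open Crest.AnalysisR.CStarEmbedding in
theorem exists_dat {O : Type} [CStarAlgebra O] {s₁ s₂ : O} (h : IsCuntzTwo O s₁ s₂) :
    ∃ Φ δ, Dat (fun b => cond b s₂ s₁) Φ δ := by
  obtain ⟨S, h1, h2, h3⟩ := exists_model
  obtain ⟨a1, a2, a3, -, a5⟩ := h
  obtain ⟨Φ, b1, b2⟩ := a5 _ (S false) (S true) (h2 _) (h2 _) h3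
  have h12 : star s₁ * s₂ = 0 := by
    have : star s₁ * (s₁ * star s₁ + s₂ * star s₂) * s₁ = 1 := by rw [a3, mul_one, a1]
    rw [mul_add, add_mul, ← mul_assoc, a1, one_mul, a1, add_eq_left] at this
    rw [← CStarRing.mul_star_self_eq_zero_iff, star_mul, star_star, ← this]
    simp only [mul_assoc]
  have h21 : star s₂ * s₁ = 0 := by simpa using congrArg star h12
  refine ⟨Φ, fun μ => stdBasis _ (pos μ), fun b c => ?_, ?_,
    (stdBasis (ℤ × ℕ)).orthonormal.comp _ pos_inj, fun b μ => ?_⟩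
  · cases b <;> cases c <;> simp [a1, a2, h12, h21]
  · simpa [add_comm] using a3
  · cases b <;> simp [b1, b2, h1, pos]

section approx

variable {O : Type} [CStarAlgebra O] {K : Type*} [NormedAddCommGroup K] [InnerProductSpace ℂ K]
  [CompleteSpace K] (π : O →⋆ₐ[ℂ] (K →L[ℂ] K)) (s : Bool → O) (Φ : O →⋆ₐ[ℂ] (LL →L[ℂ] LL))
  (δ : List Bool → LL)

/-- `π (s_μ)⋆` -/
noncomputable def rr : List Bool → K →L[ℂ] K
  | [] => 1
  | b :: μ => rr μ * π (star (s b))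

/-- the sesquilinear forms -/
noncomputable def BB (A B : Finset (List Bool)) (x : O) (a b : K) : ℂ :=
  ∑ μ ∈ A, ∑ ν ∈ B, ⟪δ μ, Φ x (δ ν)⟫_ℂ * ⟪rr π s μ a, rr π s ν b⟫_ℂ

/-- the error -/
noncomputable def DD (N : ℕ) (x : O) (a b : K) : ℂ :=
  (N : ℂ)⁻¹ * BB π s Φ δ (WN N) (WN N) x a b - ⟪a, π x b⟫_ℂ

/-- the approximation property at `x` -/
def PP (x : O) : Prop :=
  ∀ ε > 0, ∀ᶠ N in atTop, ∀ a b : K, ‖DD π s Φ δ N x a b‖ ≤ ε * (‖a‖ * ‖b‖)

variable {s Φ δ}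

theorem inner_star {H : Type*} [NormedAddCommGroup H] [InnerProductSpace ℂ H] [CompleteSpace H]
    (ρ : O →⋆ₐ[ℂ] (H →L[ℂ] H)) (y : O) (a b : H) : ⟪ρ (star y) a, b⟫_ℂ = ⟪a, ρ y b⟫_ℂ := by
  rw [map_star, ContinuousLinearMap.star_eq_adjoint, ContinuousLinearMap.adjoint_inner_left]

theorem inner_star' {H : Type*} [NormedAddCommGroup H] [InnerProductSpace ℂ H] [CompleteSpace H]
    (ρ : O →⋆ₐ[ℂ] (H →L[ℂ] H)) (y : O) (a b : H) : ⟪ρ y a, b⟫_ℂ = ⟪a, ρ (star y) b⟫_ℂ := by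
  rw [← inner_star, star_star]

theorem Dat.sum_rr (h : Dat s Φ δ) : ∀ (l : ℕ) (a b : K),
    ∑ μ ∈ Wd l, ⟪rr π s μ a, rr π s μ b⟫_ℂ = ⟪a, b⟫_ℂ
  | 0, a, b => by simp [Wd, rr]
  | l + 1, a, b => by
    simp only [sum_Wd_succ, rr, mul_apply_eq_comp, h.sum_rr l, inner_star]
    simp only [← mul_apply_eq_comp, ← map_mul]
    rw [← inner_sum, ← _root_.sum_apply, ← map_sum, h.sum, map_one,
      one_apply_eq_self]

theorem Dat.sum_rr_WN (h : Dat s Φ δ) (N : ℕ) (a b : K) :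
    ∑ μ ∈ WN N, ⟪rr π s μ a, rr π s μ b⟫_ℂ = N * ⟪a, b⟫_ℂ := by
  simp [sum_WN, h.sum_rr π]

theorem Dat.norm_rr (h : Dat s Φ δ) (l : ℕ) (a : K) :
    √(∑ μ ∈ Wd l, ‖rr π s μ a‖ ^ 2) = ‖a‖ := by
  have := h.sum_rr π l a a
  simp only [inner_self_eq_norm_sq_to_K] at this
  have h2 : ∑ μ ∈ Wd l, ‖rr π s μ a‖ ^ 2 = ‖a‖ ^ 2 := by exact_mod_cast this
  rw [h2, Real.sqrt_sq (norm_nonneg _)]

theorem Dat.norm_rr_WN (h : Dat s Φ δ) (N : ℕ) (a : K) :
    √(∑ μ ∈ WN N, ‖rr π s μ a‖ ^ 2) = √N * ‖a‖ := by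
  have := h.sum_rr_WN π N a a
  simp only [inner_self_eq_norm_sq_to_K] at this
  have h2 : ∑ μ ∈ WN N, ‖rr π s μ a‖ ^ 2 = N * ‖a‖ ^ 2 := by
    apply Complex.ofReal_injective
    push_cast
    exact this
  rw [h2, Real.sqrt_mul (Nat.cast_nonneg _), Real.sqrt_sq (norm_nonneg _)]

theorem Dat.BB_le (h : Dat s Φ δ) (l N : ℕ) (x : O) (a b : K) :
    ‖BB π s Φ δ (Wd l) (WN N) x a b‖ ≤ √N * ‖x‖ * (‖a‖ * ‖b‖) := by
  refine (tensor_le h.orth _ _ _ _ _).trans ?_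
  rw [h.norm_rr, h.norm_rr_WN]
  calc _ ≤ ‖x‖ * (‖a‖ * (√N * ‖b‖)) := by
        gcongr; exact NonUnitalStarAlgHom.norm_apply_le Φ x
    _ = _ := by ring

theorem Dat.DD_le (h : Dat s Φ δ) (N : ℕ) (x : O) (a b : K) :
    ‖DD π s Φ δ N x a b‖ ≤ 2 * ‖x‖ * (‖a‖ * ‖b‖) := by
  have h1 : ‖BB π s Φ δ (WN N) (WN N) x a b‖ ≤ N * (‖x‖ * (‖a‖ * ‖b‖)) := by
    refine (tensor_le h.orth _ _ _ _ _).trans ?_
    rw [h.norm_rr_WN, h.norm_rr_WN]
    calc _ ≤ ‖x‖ * (√N * ‖a‖ * (√N * ‖b‖)) := by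
          gcongr; exact NonUnitalStarAlgHom.norm_apply_le Φ x
      _ = √N * √N * (‖x‖ * (‖a‖ * ‖b‖)) := by ring
      _ = _ := by rw [Real.mul_self_sqrt (Nat.cast_nonneg _)]
  have h2 : ‖(N : ℂ)⁻¹ * BB π s Φ δ (WN N) (WN N) x a b‖ ≤ ‖x‖ * (‖a‖ * ‖b‖) := by
    rw [norm_mul, norm_inv, Complex.norm_natCast]
    rcases Nat.eq_zero_or_pos N with rfl | hN
    · simp; positivity
    · rw [inv_mul_le_iff₀ (by exact_mod_cast hN)]; exact h1
  have h3 : ‖⟪a, π x b⟫_ℂ‖ ≤ ‖x‖ * (‖a‖ * ‖b‖) :=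
    calc _ ≤ ‖a‖ * ‖π x b‖ := norm_inner_le_norm _ _
      _ ≤ ‖a‖ * (‖π x‖ * ‖b‖) := by gcongr; exact (π x).le_opNorm b
      _ ≤ ‖a‖ * (‖x‖ * ‖b‖) := by gcongr; exact NonUnitalStarAlgHom.norm_apply_le π x
      _ = _ := by ring
  exact (norm_sub_le _ _).trans (by linarith)

theorem DD_add (N : ℕ) (x y : O) (a b : K) :
    DD π s Φ δ N (x + y) a b = DD π s Φ δ N x a b + DD π s Φ δ N y a b := by
  simp only [DD, BB, map_add, add_apply, inner_add_right, add_mul,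
    sum_add_distrib]
  ring

theorem DD_smul (N : ℕ) (c : ℂ) (x : O) (a b : K) :
    DD π s Φ δ N (c • x) a b = c * DD π s Φ δ N x a b := by
  simp only [DD, BB, map_smul, smul_apply, inner_smul_right, mul_assoc,
    ← mul_sum]
  ring

theorem Dat.BB_mul (h : Dat s Φ δ) (l : ℕ) (B : Finset (List Bool)) (c : Bool) (x : O) (a b : K) :
    BB π s Φ δ (Wd (l + 1)) B (s c * x) a b = BB π s Φ δ (Wd l) B x (π (star (s c)) a) b := by
  have key : ∀ b' μ ν, ⟪δ (b' :: μ), Φ (s c * x) (δ ν)⟫_ℂ =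
      if b' = c then ⟪δ μ, Φ x (δ ν)⟫_ℂ else 0 := by
    intro b' μ ν
    rw [h.cons, inner_star', ← mul_apply_eq_comp, ← map_mul, ← mul_assoc, h.rel]
    split_ifs <;> simp
  unfold BB
  rw [sum_Wd_succ, Finset.sum_eq_single c]
  · simp only [key, if_true, rr, mul_apply_eq_comp]
  · intro b' _ hb'
    simp only [key, if_neg hb', zero_mul, sum_const_zero]
  · simp

theorem Dat.BB_star (h : Dat s Φ δ) (l : ℕ) (B : Finset (List Bool)) (c : Bool) (x : O)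
    (a b : K) :
    BB π s Φ δ (Wd (l + 1)) B x (π (s c) a) b = BB π s Φ δ (Wd l) B (star (s c) * x) a b := by
  have key : ∀ b' μ, rr π s (b' :: μ) (π (s c) a) = if b' = c then rr π s μ a else 0 := by
    intro b' μ
    rw [rr, mul_apply_eq_comp, ← mul_apply_eq_comp (π _), ← map_mul, h.rel]
    split_ifs <;> simp
  unfold BB
  rw [sum_Wd_succ, Finset.sum_eq_single c]
  · simp only [key, if_true, h.cons, inner_star', map_mul, mul_apply_eq_comp]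
  · intro b' _ hb'
    simp [key, hb']
  · simp

theorem BB_WN (N : ℕ) (B : Finset (List Bool)) (x : O) (a b : K) :
    BB π s Φ δ (WN N) B x a b = ∑ l ∈ range N, BB π s Φ δ (Wd l) B x a b := sum_WN _ _

theorem Dat.norm_s (h : Dat s Φ δ) (c : Bool) : ‖s c‖ ≤ 1 := by
  have h1 : ‖s c‖ * ‖s c‖ ≤ 1 := by
    rw [← CStarRing.norm_star_mul_self, h.rel, if_pos rfl]
    rcases subsingleton_or_nontrivial O with _ | _
    · rw [Subsingleton.elim (1 : O) 0]; simp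
    · simp
  nlinarith [norm_nonneg (s c)]

theorem Dat.shift (h : Dat s Φ δ) (N : ℕ) (x : O) (a b : K) :
    ‖(N : ℂ)⁻¹ * (∑ l ∈ range N, BB π s Φ δ (Wd (l + 1)) (WN N) x a b -
      BB π s Φ δ (WN N) (WN N) x a b)‖ ≤ 2 * ‖x‖ * (√N)⁻¹ * (‖a‖ * ‖b‖) := by
  have h1 := sum_range_succ (fun l => BB π s Φ δ (Wd l) (WN N) x a b) N
  rw [sum_range_succ'] at h1
  rw [BB_WN, show ∑ l ∈ range N, BB π s Φ δ (Wd (l + 1)) (WN N) x a b -
    ∑ l ∈ range N, BB π s Φ δ (Wd l) (WN N) x a b =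
      BB π s Φ δ (Wd N) (WN N) x a b - BB π s Φ δ (Wd 0) (WN N) x a b by linear_combination h1,
    norm_mul, norm_inv, Complex.norm_natCast]
  have h2 := (norm_sub_le _ _).trans (add_le_add (h.BB_le π N N x a b) (h.BB_le π 0 N x a b))
  refine (mul_le_mul_of_nonneg_left h2 (by positivity)).trans (le_of_eq ?_)
  rcases Nat.eq_zero_or_pos N with rfl | hN
  · simp
  · have h3 : (0 : ℝ) < √N := Real.sqrt_pos.2 (by exact_mod_cast hN)
    conv_lhs => rw [← Real.mul_self_sqrt (Nat.cast_nonneg N : (0 : ℝ) ≤ N), Real.sqrt_mul_self h3.le]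
    field_simp
    ring

theorem ev_small (C : ℝ) {ε : ℝ} (hε : 0 < ε) : ∀ᶠ N : ℕ in atTop, C * (√N)⁻¹ ≤ ε := by
  have : Tendsto (fun N : ℕ => C * (√(N : ℝ))⁻¹) atTop (𝓝 (C * 0)) :=
    (tendsto_inv_atTop_zero.comp
      (Real.tendsto_sqrt_atTop.comp tendsto_natCast_atTop_atTop)).const_mul C
  rw [mul_zero] at this
  exact this.eventually (ge_mem_nhds hε)

theorem norm_π_le {y : O} (hy : ‖y‖ ≤ 1) (a : K) : ‖π y a‖ ≤ ‖a‖ :=
  calc _ ≤ ‖π y‖ * ‖a‖ := (π y).le_opNorm a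
    _ ≤ 1 * ‖a‖ := by gcongr; exact (NonUnitalStarAlgHom.norm_apply_le π y).trans hy
    _ = _ := one_mul _

theorem Dat.PP_mul (h : Dat s Φ δ) (c : Bool) {x : O} (hx : PP π s Φ δ x) :
    PP π s Φ δ (s c * x) := by
  intro ε hε
  filter_upwards [hx (ε / 2) (by positivity), ev_small (2 * ‖s c * x‖) (half_pos hε)]
    with N h1 h2 a b
  have h3 := h.shift π N (s c * x) a b
  simp only [h.BB_mul, ← BB_WN] at h3
  have h4 := h1 (π (star (s c)) a) b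
  have h5 := norm_π_le π (y := star (s c)) (by rw [norm_star]; exact h.norm_s c) a
  have h6 : DD π s Φ δ N (s c * x) a b = DD π s Φ δ N x (π (star (s c)) a) b -
      (N : ℂ)⁻¹ * (BB π s Φ δ (WN N) (WN N) x (π (star (s c)) a) b -
        BB π s Φ δ (WN N) (WN N) (s c * x) a b) := by
    unfold DD
    rw [inner_star, map_mul, mul_apply_eq_comp]; ring
  rw [h6]
  calc _ ≤ ε / 2 * (‖π (star (s c)) a‖ * ‖b‖) + 2 * ‖s c * x‖ * (√N)⁻¹ * (‖a‖ * ‖b‖) :=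
        (norm_sub_le _ _).trans (add_le_add h4 h3)
    _ ≤ ε / 2 * (‖a‖ * ‖b‖) + ε / 2 * (‖a‖ * ‖b‖) := by gcongr
    _ = _ := by ring

theorem Dat.PP_star (h : Dat s Φ δ) (c : Bool) {x : O} (hx : PP π s Φ δ x) :
    PP π s Φ δ (star (s c) * x) := by
  intro ε hε
  filter_upwards [hx (ε / 2) (by positivity), ev_small (2 * ‖x‖) (half_pos hε)]
    with N h1 h2 a b
  have h3 := h.shift π N x (π (s c) a) b
  simp only [h.BB_star, ← BB_WN] at h3
  have h4 := h1 (π (s c) a) b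
  have h5 := norm_π_le π (h.norm_s c) a
  have h6 : DD π s Φ δ N (star (s c) * x) a b = DD π s Φ δ N x (π (s c) a) b +
      (N : ℂ)⁻¹ * (BB π s Φ δ (WN N) (WN N) (star (s c) * x) a b -
        BB π s Φ δ (WN N) (WN N) x (π (s c) a) b) := by
    unfold DD
    rw [inner_star', map_mul, mul_apply_eq_comp]; ring
  rw [h6]
  calc _ ≤ ε / 2 * (‖π (s c) a‖ * ‖b‖) + 2 * ‖x‖ * (√N)⁻¹ * (‖π (s c) a‖ * ‖b‖) :=
        (norm_add_le _ _).trans (add_le_add h4 h3)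
    _ ≤ ε / 2 * (‖a‖ * ‖b‖) + ε / 2 * (‖a‖ * ‖b‖) := by gcongr
    _ = _ := by ring

theorem Dat.PP_one (h : Dat s Φ δ) : PP π s Φ δ 1 := by
  classical
  intro ε hε
  filter_upwards [eventually_gt_atTop 0] with N hN a b
  have h1 : BB π s Φ δ (WN N) (WN N) 1 a b = N * ⟪a, b⟫_ℂ := by
    rw [← h.sum_rr_WN π]
    refine sum_congr rfl fun μ hμ => ?_
    simp [orthonormal_iff_ite.1 h.orth, hμ]
  have h2 : (N : ℂ) ≠ 0 := by exact_mod_cast hN.ne'
  rw [DD, h1, inv_mul_cancel_left₀ h2, map_one, one_apply_eq_self, sub_self, norm_zero]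
  positivity

theorem PP_add {x y : O} (hx : PP π s Φ δ x) (hy : PP π s Φ δ y) : PP π s Φ δ (x + y) := by
  intro ε hε
  filter_upwards [hx _ (half_pos hε), hy _ (half_pos hε)] with N h1 h2 a b
  rw [DD_add]
  exact (norm_add_le _ _).trans (by linarith [h1 a b, h2 a b])

theorem PP_smul (c : ℂ) {x : O} (hx : PP π s Φ δ x) : PP π s Φ δ (c • x) := by
  intro ε hε
  filter_upwards [hx (ε / (‖c‖ + 1)) (by positivity)] with N h1 a b
  rw [DD_smul, norm_mul]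
  calc _ ≤ (‖c‖ + 1) * (ε / (‖c‖ + 1) * (‖a‖ * ‖b‖)) := by gcongr; exacts [by linarith, h1 a b]
    _ = _ := by field_simp

theorem Dat.PP_all (h : Dat s Φ δ) {G : Set O} (hG : ∀ y ∈ G, ∃ c, y = s c)
    (hd : (StarAlgebra.adjoin ℂ G).topologicalClosure = ⊤) (x : O) : PP π s Φ δ x := by
  have key : ∀ y ∈ StarAlgebra.adjoin ℂ G, (∀ x, PP π s Φ δ x → PP π s Φ δ (y * x)) ∧
      ∀ x, PP π s Φ δ x → PP π s Φ δ (star y * x) := by
    intro y hy
    induction hy using StarAlgebra.adjoin_induction with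
    | mem y hy =>
      obtain ⟨c, rfl⟩ := hG y hy
      exact ⟨fun x => h.PP_mul π c, fun x => h.PP_star π c⟩
    | algebraMap c =>
      refine ⟨fun x hx => ?_, fun x hx => ?_⟩
      · rw [← Algebra.smul_def]; exact PP_smul π c hx
      · rw [← algebraMap_star_comm, ← Algebra.smul_def]; exact PP_smul π _ hx
    | add y z _ _ hy hz =>
      refine ⟨fun x hx => ?_, fun x hx => ?_⟩
      · rw [add_mul]; exact PP_add π (hy.1 x hx) (hz.1 x hx)
      · rw [star_add, add_mul]; exact PP_add π (hy.2 x hx) (hz.2 x hx)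
    | mul y z _ _ hy hz =>
      refine ⟨fun x hx => ?_, fun x hx => ?_⟩
      · rw [mul_assoc]; exact hy.1 _ (hz.1 x hx)
      · rw [star_mul, mul_assoc]; exact hz.2 _ (hy.2 x hx)
    | star y _ hy => exact ⟨hy.2, by simpa using hy.1⟩
  intro ε hε
  have hx : x ∈ closure (StarAlgebra.adjoin ℂ G : Set O) := by
    rw [← StarSubalgebra.topologicalClosure_coe, hd]; trivial
  obtain ⟨y, hy, hxy⟩ := Metric.mem_closure_iff.1 hx (ε / 4) (by positivity)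
  have hP : PP π s Φ δ y := by simpa using (key y hy).1 1 (h.PP_one π)
  filter_upwards [hP _ (half_pos hε)] with N h1 a b
  rw [show x = y + (x - y) by abel, DD_add]
  rw [dist_eq_norm] at hxy
  calc _ ≤ ε / 2 * (‖a‖ * ‖b‖) + 2 * ‖x - y‖ * (‖a‖ * ‖b‖) :=
        (norm_add_le _ _).trans (add_le_add (h1 a b) (h.DD_le π N _ a b))
    _ ≤ ε / 2 * (‖a‖ * ‖b‖) + 2 * (ε / 4) * (‖a‖ * ‖b‖) := by gcongr
    _ = _ := by ring

end approx

end Nuc

open Crest.AnalysisR.CStarEmbedding in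
theorem cpap {O : Type} [CStarAlgebra O] {s₁ s₂ : O} (h : IsCuntzTwo O s₁ s₂) {K : Type*}
    [NormedAddCommGroup K] [InnerProductSpace ℂ K] [CompleteSpace K]
    (π : O →⋆ₐ[ℂ] (K →L[ℂ] K)) (F : Finset O) {ε : ℝ} (hε : 0 < ε) :
    ∃ (W : Type) (_ : Fintype W) (_ : DecidableEq W) (r : W → K →L[ℂ] K)
      (φ : O → EuclideanSpace ℂ W →L[ℂ] EuclideanSpace ℂ W),
      (∀ a b : K, ∑ μ, ⟪r μ a, r μ b⟫_ℂ = ⟪a, b⟫_ℂ) ∧ (∀ x, ‖φ x‖ ≤ ‖x‖) ∧
      ∀ x ∈ F, ∀ a b : K,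
        ‖∑ μ, ∑ ν, φ x (EuclideanSpace.single ν 1) μ * ⟪r μ a, r ν b⟫_ℂ - ⟪a, π x b⟫_ℂ‖ ≤
          ε * (‖a‖ * ‖b‖) := by
  classical
  obtain ⟨Φ, δ, hd⟩ := Nuc.exists_dat h
  have hP := hd.PP_all π (G := {s₁, s₂}) (by
    rintro y (rfl | rfl)
    exacts [⟨false, rfl⟩, ⟨true, rfl⟩]) h.2.2.2.1
  obtain ⟨N, hN, h1⟩ := ((eventually_gt_atTop 0).and
    ((eventually_all_finset F).2 fun x _ => hP x ε hε)).exists
  set s : Bool → O := fun b => cond b s₂ s₁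
  obtain ⟨V, hV, hV1⟩ := R194.exists_synth_orth
    (EuclideanSpace.basisFun (Nuc.WN N) ℂ).toHilbertBasis (fun μ => δ μ) 1 zero_le_one
    (fun i j hij => hd.orth.2 fun h => hij (Subtype.ext h)) (fun i => (hd.orth.1 _).le)
  simp only [OrthonormalBasis.coe_toHilbertBasis, EuclideanSpace.basisFun_apply] at hV
  have hc : ∀ a b : K, ⟪(((√N)⁻¹ : ℝ) : ℂ) • a, (((√N)⁻¹ : ℝ) : ℂ) • b⟫_ℂ =
      (N : ℂ)⁻¹ * ⟪a, b⟫_ℂ := by
    intro a b
    rw [inner_smul_left, inner_smul_right, Complex.conj_ofReal, ← mul_assoc, ← Complex.ofReal_mul,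
      ← mul_inv, Real.mul_self_sqrt (Nat.cast_nonneg _)]
    simp
  refine ⟨Nuc.WN N, inferInstance, inferInstance, fun μ => (((√N)⁻¹ : ℝ) : ℂ) • Nuc.rr π s μ,
    fun x => V.adjoint ∘L Φ x ∘L V, fun a b => ?_, fun x => ?_, fun x hx a b => ?_⟩
  · simp only [smul_apply, hc]
    rw [← mul_sum, sum_coe_sort (Nuc.WN N) fun μ => ⟪Nuc.rr π s μ a, Nuc.rr π s μ b⟫_ℂ,
      hd.sum_rr_WN, inv_mul_cancel_left₀ (by exact_mod_cast hN.ne')]
  · calc _ ≤ ‖V.adjoint‖ * (‖Φ x‖ * ‖V‖) := (ContinuousLinearMap.opNorm_comp_le _ _).trans (by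
          gcongr; exact ContinuousLinearMap.opNorm_comp_le _ _)
      _ ≤ 1 * (‖x‖ * 1) := by
          rw [LinearIsometryEquiv.norm_map]
          gcongr; exact NonUnitalStarAlgHom.norm_apply_le Φ x
      _ = _ := by ring
  · have h2 : ∀ μ ν : Nuc.WN N, (V.adjoint ∘L Φ x ∘L V) (EuclideanSpace.single ν 1) μ =
        ⟪δ μ, Φ x (δ ν)⟫_ℂ := by
      intro μ ν
      rw [← hV, ← hV, ← ContinuousLinearMap.adjoint_inner_right, EuclideanSpace.inner_single_left]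
      simp
    convert h1 x hx a b using 2
    unfold Nuc.DD Nuc.BB
    congr 1
    simp only [h2, smul_apply, hc]
    rw [← sum_coe_sort (Nuc.WN N), mul_sum]
    refine sum_congr rfl fun μ _ => ?_
    rw [← sum_coe_sort (Nuc.WN N), mul_sum]
    exact sum_congr rfl fun ν _ => by ring

open Crest.AnalysisR.CStarEmbedding in
theorem nontrivial_cuntz {O : Type} [CStarAlgebra O] {s₁ s₂ : O} (h : IsCuntzTwo O s₁ s₂) :
    Nontrivial O := by
  obtain ⟨Φ, δ, hd⟩ := Nuc.exists_dat h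
  have : Nontrivial Nuc.LL := ⟨δ [], 0, hd.orth.ne_zero _⟩
  exact Φ.toAlgHom.toRingHom.domain_nontrivial

end Crest.Agent.R73
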