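import Crest.Agent.R73.Fin
import Crest.Agent.R73.Nuc

/-!
# Row 73: the energy is bounded below at high levels for coefficients in `O₂` (task R73-Red)

PLAN.  Take `cpap` for `F = {x i j | j < p}`, `ε = 1/160`, `k + 1 ≥ 2 card W`.  For
`ξ : L2 X K` take an orthonormal basis `b t` of the span of the finitely many vectors `r μ (ξ v)`
and put `ξt t v = toLp fun μ => ⟪b t, r μ (ξ v)⟫ ∈ EuclideanSpace ℂ W`.  Then
`∑ t, ⟪ξt t v, T (ξt t v')⟫ = ∑ μ ν, T (single ν 1) μ * ⟪r μ (ξ v), r ν (ξ v')⟫`, so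
`∑ t, ‖ξt t‖² = ‖ξ‖²` and `∑ t, qX (φ x) (ξt t) ≤ qX (π x) ξ + 4 ε ‖ξ‖²`; apply `fin_bound`.
-/

set_option autoImplicit false

namespace Crest.Agent.R73

open Filter Topology Finset
open scoped InnerProductSpace commutatorElement ComplexConjugate

/-- Gram matrices of finite families come from coordinates -/
theorem red_gram {K : Type*} [NormedAddCommGroup K] [InnerProductSpace ℂ K] {J : Type*} [Finite J]
    (u : J → K) : ∃ (n : ℕ) (c : Fin n → J → ℂ),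
      ∀ j j', ∑ t, conj (c t j) * c t j' = ⟪u j, u j'⟫_ℂ := by
  let S := Submodule.span ℂ (Set.range u)
  have : FiniteDimensional ℂ S := FiniteDimensional.span_of_finite ℂ (Set.finite_range u)
  let b := stdOrthonormalBasis ℂ S
  let u' : J → S := fun j => ⟨u j, Submodule.subset_span ⟨j, rfl⟩⟩
  refine ⟨_, fun t j => ⟪b t, u' j⟫_ℂ, fun j j' => ?_⟩
  simp only [inner_conj_symm]
  exact b.sum_inner_mul_inner (u' j) (u' j')

theorem red_inner {W : Type} [Fintype W] [DecidableEq W]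
    (T : EuclideanSpace ℂ W →L[ℂ] EuclideanSpace ℂ W) (a b : EuclideanSpace ℂ W) :
    ⟪a, T b⟫_ℂ = ∑ μ, ∑ ν, T (EuclideanSpace.single ν 1) μ * (conj (a μ) * b ν) := by
  have hb : b = ∑ ν, b ν • EuclideanSpace.single ν (1 : ℂ) := by
    ext μ
    simp [Pi.single_apply]
  conv_lhs => rw [hb, map_sum, inner_sum]
  rw [sum_comm]
  refine sum_congr rfl fun ν _ => ?_
  rw [map_smul, inner_smul_right, PiLp.inner_apply, mul_sum]
  refine sum_congr rfl fun μ _ => ?_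
  simp only [RCLike.inner_apply]
  ring

theorem red_cs {K : Type*} [NormedAddCommGroup K] [InnerProductSpace ℂ K] {X : Type*} [Fintype X]
    (β : Equiv.Perm X) (ξ : L2 X K) : ∑ v, ‖ξ v‖ * ‖ξ (β v)‖ ≤ ‖ξ‖ ^ 2 := by
  have h1 : ∑ v, ‖ξ (β v)‖ ^ 2 = ‖ξ‖ ^ 2 := by
    rw [PiLp.norm_sq_eq_of_L2]
    exact Equiv.sum_comp β fun v => ‖ξ v‖ ^ 2
  have h2 : ∑ v, ‖ξ v‖ ^ 2 = ‖ξ‖ ^ 2 := (PiLp.norm_sq_eq_of_L2 _ _).symm
  have h3 : ∑ v, ‖ξ v‖ * ‖ξ (β v)‖ ≤ ∑ v, (‖ξ v‖ ^ 2 + ‖ξ (β v)‖ ^ 2) / 2 :=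
    sum_le_sum fun v _ => by nlinarith [sq_nonneg (‖ξ v‖ - ‖ξ (β v)‖)]
  rw [← sum_div, sum_add_distrib, h1, h2] at h3
  linarith

open Crest.AnalysisR.CStarEmbedding in
theorem nuc_bound {p : ℕ} [Fact p.Prime] (hp : 25 ≤ p) {O : Type} [CStarAlgebra O] {s₁ s₂ : O}
    (h : IsCuntzTwo O s₁ s₂) {K : Type*} [NormedAddCommGroup K] [InnerProductSpace ℂ K]
    [CompleteSpace K] (π : O →⋆ₐ[ℂ] (K →L[ℂ] K)) (x : ι → ℕ → O) (hx : ∀ i j, ‖x i j‖ ≤ 1) :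
    ∃ k, ∀ ξ : L2 (XX p (k + 1)) K, 1 / 40 * ‖ξ‖ ^ 2 ≤ qX (k + 1) (fun i j => π (x i j)) ξ := by
  classical
  obtain ⟨W, _, _, r, φ, h1, h2, h3⟩ := cpap h π
    ((univ ×ˢ range p).image fun ij : ι × ℕ => x ij.1 ij.2) (ε := 1 / 160) (by norm_num)
  refine ⟨2 * Fintype.card W, ?_⟩
  generalize hk : 2 * Fintype.card W + 1 = k
  intro ξ
  obtain ⟨n, c, hc⟩ := red_gram fun j : W × XX p k => r j.1 (ξ j.2)
  let ξt : Fin n → L2 (XX p k) (EuclideanSpace ℂ W) := fun t =>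
    WithLp.toLp 2 fun v => WithLp.toLp 2 fun μ => c t (μ, v)
  have key : ∀ (T : EuclideanSpace ℂ W →L[ℂ] EuclideanSpace ℂ W) (β : Equiv.Perm (XX p k)),
      ∑ t, ⟪ξt t, amp T β (ξt t)⟫_ℂ = ∑ v, ∑ μ, ∑ ν, T (EuclideanSpace.single ν 1) μ *
        ⟪r μ (ξ v), r ν (ξ (β⁻¹ v))⟫_ℂ := by
    intro T β
    simp only [inner_amp, red_inner T]
    rw [sum_comm]
    refine sum_congr rfl fun v _ => ?_
    rw [sum_comm]
    refine sum_congr rfl fun μ _ => ?_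
    rw [sum_comm]
    refine sum_congr rfl fun ν _ => ?_
    rw [← mul_sum]
    congr 1
    exact hc (μ, v) (ν, β⁻¹ v)
  have key1 : ∀ β : Equiv.Perm (XX p k),
      ∑ t, ⟪ξt t, amp 1 β (ξt t)⟫_ℂ = ⟪ξ, amp 1 β ξ⟫_ℂ := by
    intro β
    rw [key, inner_amp]
    refine sum_congr rfl fun v _ => ?_
    rw [one_apply_eq_self, ← h1]
    refine sum_congr rfl fun μ _ => ?_
    simp
  have keyn : ∑ t, ‖ξt t‖ ^ 2 = ‖ξ‖ ^ 2 := by
    have := congrArg Complex.re (key1 1)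
    rw [amp_one, amp_one, Complex.re_sum] at this
    simp only [one_apply_eq_self, inner_self_eq_norm_sq_to_K] at this
    exact_mod_cast this
  have key2 : ∀ i, ∀ j ∈ range p, (⟪ξ, amp (π (x i j)) (α p k i ^ j) ξ⟫_ℂ).re - 1 / 160 * ‖ξ‖ ^ 2 ≤
      ∑ t, (⟪ξt t, amp (φ (x i j)) (α p k i ^ j) (ξt t)⟫_ℂ).re := by
    intro i j hj
    have hm : x i j ∈ (univ ×ˢ range p).image fun ij : ι × ℕ => x ij.1 ij.2 :=
      mem_image.2 ⟨(i, j), mem_product.2 ⟨mem_univ _, hj⟩, rfl⟩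
    have h4 : ‖∑ t, ⟪ξt t, amp (φ (x i j)) (α p k i ^ j) (ξt t)⟫_ℂ -
        ⟪ξ, amp (π (x i j)) (α p k i ^ j) ξ⟫_ℂ‖ ≤ 1 / 160 * ‖ξ‖ ^ 2 := by
      rw [key, inner_amp, ← sum_sub_distrib]
      refine (norm_sum_le _ _).trans ((sum_le_sum fun v _ => h3 _ hm _ _).trans ?_)
      rw [← mul_sum]
      exact mul_le_mul_of_nonneg_left (red_cs _ ξ) (by norm_num)
    have h5 := (abs_le.1 ((Complex.abs_re_le_norm _).trans h4)).1
    rw [Complex.sub_re, Complex.re_sum] at h5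
    linarith
  have hfin : ∑ t, 1 / 20 * ‖ξt t‖ ^ 2 ≤ ∑ t, qX k (fun i j => φ (x i j)) (ξt t) :=
    sum_le_sum fun t _ => fin_bound hp _ (fun i j => (h2 _).trans (hx i j)) (by omega)
      (by rw [finrank_euclideanSpace]; omega) _
  rw [← mul_sum, keyn] at hfin
  have hp0 : (0 : ℝ) < p := by positivity
  have h6 : ∑ t, qX k (fun i j => φ (x i j)) (ξt t) ≤
      qX k (fun i j => π (x i j)) ξ + ∑ _i : ι, 1 / 160 * ‖ξ‖ ^ 2 := by
    unfold qX qf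
    rw [sum_add_distrib, add_right_comm, ← sum_add_distrib (s := (univ : Finset ι)), sum_comm]
    refine add_le_add (sum_le_sum fun i _ => ?_) (le_of_eq ?_)
    · rw [sum_sub_distrib, keyn, ← mul_sum, sum_comm]
      have h7 := sum_le_sum (key2 i)
      rw [sum_sub_distrib, sum_const, card_range, nsmul_eq_mul] at h7
      have h8 := mul_le_mul_of_nonneg_left h7 (inv_nonneg.2 hp0.le)
      rw [mul_sub, ← mul_assoc, inv_mul_cancel₀ hp0.ne', one_mul] at h8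
      linarith
    · rw [← mul_sum, sum_comm]
      congr 1
      refine sum_congr rfl fun j _ => ?_
      rw [← Complex.re_sum, key1]
  rw [sum_const, card_univ, show Fintype.card ι = 4 from rfl, nsmul_eq_mul] at h6
  push_cast at h6
  linarith

end Crest.Agent.R73
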