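import Crest.Agent.R73.Step
import Crest.Agent.R73.Red
import Crest.Agent.R73.Rep
import Crest.Agent.R73.Univ

/-! # Row 73: the main argument -/

set_option autoImplicit false

namespace Crest.Agent.R73

open Filter Topology Finset Crest.AnalysisR.CStarEmbedding
open scoped InnerProductSpace commutatorElement ComplexConjugate

section Y

variable {G : Type*} [Group G] (p : ℕ) (S : ι → G)

/-- the test element -/
noncomputable def Yop {B : Type*} [AddCommGroup B] [Module ℂ B] (f : G → B) : B :=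
  f 1 + (f (S (some 0)) + f (S (some 1)) + f (S (some 2)) + f ⁅S (some 0), S none⁆ +
    (f 1 - (p : ℂ)⁻¹ • ∑ j ∈ range p, f (S none ^ j)))

theorem map_Yop {B B' : Type*} [AddCommGroup B] [Module ℂ B] [AddCommGroup B'] [Module ℂ B']
    {F : Type*} [FunLike F B B'] [LinearMapClass F ℂ B B'] (L : F) (f : G → B) :
    L (Yop p S f) = Yop p S fun g => L (f g) := by
  simp only [Yop, map_add, map_sub, map_smul, map_sum]

theorem eq_of_two_le {V : Type*} [NormedAddCommGroup V] [InnerProductSpace ℂ V] {x y : V}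
    (hx : ‖x‖ ≤ 1) (hy : ‖y‖ ≤ 1) (h : 2 ≤ ‖x + y‖) : y = x := by
  have := parallelogram_law_with_norm ℂ x y
  have h0 : ‖x - y‖ * ‖x - y‖ ≤ 0 := by nlinarith [norm_nonneg x, norm_nonneg y]
  exact (sub_eq_zero.1 (norm_eq_zero.1 (mul_self_eq_zero.1 (le_antisymm h0 (mul_self_nonneg _))))).symm

theorem tight {V : Type*} [NormedAddCommGroup V] [InnerProductSpace ℂ V] {x a b c d e : V}
    (hx : ‖x‖ ≤ 1) (ha : ‖a‖ ≤ 1) (hb : ‖b‖ ≤ 1) (hc : ‖c‖ ≤ 1) (hd : ‖d‖ ≤ 1) (he : ‖e‖ ≤ 1)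
    (h : 6 ≤ ‖x + (a + b + c + d + e)‖) : a = x ∧ b = x ∧ c = x ∧ d = x ∧ e = x := by
  have key : ∀ {a b c d e : V}, ‖a‖ ≤ 1 → ‖b‖ ≤ 1 → ‖c‖ ≤ 1 → ‖d‖ ≤ 1 → ‖e‖ ≤ 1 →
      6 ≤ ‖x + a + b + c + d + e‖ → a = x := fun {a b c d e} ha hb hc hd he h =>
    eq_of_two_le hx ha (by
      linarith [norm_add_le (x + a + b + c + d) e, norm_add_le (x + a + b + c) d,
        norm_add_le (x + a + b) c, norm_add_le (x + a) b])
  refine ⟨key ha hb hc hd he ?_, key hb ha hc hd he ?_, key hc ha hb hd he ?_,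
    key hd ha hb hc he ?_, key he ha hb hc hd ?_⟩ <;> convert h using 2 <;> abel

variable {p S}

theorem six_le [Fact p.Prime] {G : Type} [Group G] {S : ι → G} {A : Type} [CStarAlgebra A]
    {u : G →* unitary A} (hu : IsFullGroupCStar A u) (h : Rel p S 1)
    (hc : ∀ i ≠ 0, ⁅S (some i), S none⁆ = 1) {Y : Type} [MulAction G Y] {y : Y}
    (ha : ∀ i, S (some i) • y = y) (hd : ⁅S (some 0), S none⁆ • y = y) (hy : S none • y ≠ y) :
    6 ≤ ‖Yop p S fun g => (u g : A)‖ := by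
  let b := R194.stdBasis Y
  let w : G →* unitary (lp (fun _ : Y => ℂ) 2 →L[ℂ] lp (fun _ : Y => ℂ) 2) :=
    ((R194.permOp b).comp (MulAction.toPermHom G Y)).codRestrict _ fun g =>
      R194.permOp_mem_unitary b _
  obtain ⟨Ψ, hΨ⟩ := hu.2 _ w
  let ρ : URep G (lp (fun _ : Y => ℂ) 2) :=
    { R := { toFun := fun g => (w g : _ →L[ℂ] _).toLinearMap
             map_one' := by rw [map_one]; rfl
             map_mul' := fun g h => by rw [map_mul]; rfl }
      adj := fun g x y => by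
        change ⟪(w g : _ →L[ℂ] _) x, y⟫_ℂ = ⟪x, (w g⁻¹ : _ →L[ℂ] _) y⟫_ℂ
        rw [map_inv, ← Unitary.star_eq_inv, Unitary.coe_star, ContinuousLinearMap.star_eq_adjoint,
          ContinuousLinearMap.adjoint_inner_right] }
  have hb : ∀ g v, ρ.R g (b v) = b (g • v) := fun g v => R194.permOp_apply b _ v
  set x := b y - ρ.P p (S none) (b y) with hx
  have hx0 : x ≠ 0 := fun h0 => by
    have h1 := ρ.R_P (h.pow none) (b y)
    rw [← sub_eq_zero.1 h0, hb] at h1
    exact hy (b.orthonormal.linearIndependent.injective h1)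
  have h1 : ∀ i, ρ.R (S (some i)) x = x := fun i => by
    rw [hx, map_sub, ρ.R_P_fix (h.heis _ _), hb, ha]
    · rw [hb, ha]
    · by_cases hi : i = 0
      · rw [hi, hb, hd]
      · rw [hc i hi, hb, one_smul]
  have h2 : ρ.R ⁅S (some 0), S none⁆ x = x := by
    rw [hx, map_sub, ρ.R_P_comm (h.heis _ _), hb, hd]
  have h3 : ρ.P p (S none) x = 0 := by
    rw [hx, map_sub, ρ.P_of_fix (ρ.R_P (h.pow none) _), sub_self]
  have h4 : Ψ (Yop p S fun g => (u g : A)) x = (6 : ℂ) • x := by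
    have e := map_Yop p S (ContinuousLinearMap.apply ℂ _ x) fun g => Ψ (u g)
    rw [map_Yop, ← ContinuousLinearMap.apply_apply (𝕜 := ℂ), e]
    simp only [ContinuousLinearMap.apply_apply, hΨ]
    change Yop p S (fun g => ρ.R g x) = _
    rw [Yop, ← ρ.P_apply, h1, h1, h1, h2, h3, map_one, Module.End.one_apply]
    module
  have h5 := (Ψ (Yop p S fun g => (u g : A))).le_of_opNorm_le
    (NonUnitalStarAlgHom.norm_apply_le Ψ _) x
  rw [h4, norm_smul] at h5
  simpa using le_of_mul_le_mul_right h5 (norm_pos_iff.2 hx0)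

end Y

section Ap

variable {ω : Ultrafilter ℕ} {A O : Type} [CStarAlgebra A] [CStarAlgebra O] {φ : ℕ → A → O}

/-- `y` represents the image of `a` -/
def Ap (ω : Ultrafilter ℕ) (φ : ℕ → A → O) (a : A) (y : ℕ → O) : Prop :=
  Tendsto (fun n => ‖φ n a - y n‖) ω (𝓝 0)

variable (hφ : IsUltrapowerEmbedding ω A O φ) {a a' : A} {y y' : ℕ → O}
include hφ

theorem Ap.norm (h : Ap ω φ a y) : Tendsto (fun n => ‖y n‖) ω (𝓝 ‖a‖) := by
  refine (hφ.2.2.2.2.2.2 a).congr_dist (squeeze_zero (fun _ => dist_nonneg) (fun n => ?_) h)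
  rw [Real.dist_eq]
  exact abs_norm_sub_norm_le _ _

theorem Ap.add (h : Ap ω φ a y) (h' : Ap ω φ a' y') : Ap ω φ (a + a') fun n => y n + y' n := by
  have := ((hφ.2.1 a a').add h).add h'
  simp only [add_zero] at this
  refine squeeze_zero (fun _ => norm_nonneg _) (fun n => ?_) this
  have e : φ n (a + a') - (y n + y' n) =
      φ n (a + a') - (φ n a + φ n a') + (φ n a - y n) + (φ n a' - y' n) := by abel
  rw [e]
  exact norm_add₃_le

theorem Ap.smul (c : ℂ) (h : Ap ω φ a y) : Ap ω φ (c • a) fun n => c • y n := by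
  have := (hφ.2.2.1 c a).add (h.const_mul ‖c‖)
  simp only [mul_zero, add_zero] at this
  refine squeeze_zero (fun _ => norm_nonneg _) (fun n => ?_) this
  rw [← norm_smul, smul_sub]
  exact norm_sub_le_norm_sub_add_norm_sub _ _ _

theorem Ap.sub (h : Ap ω φ a y) (h' : Ap ω φ a' y') : Ap ω φ (a - a') fun n => y n - y' n := by
  simpa [sub_eq_add_neg] using h.add hφ (h'.smul hφ (-1))

theorem Ap.sum {κ : Type*} (s : Finset κ) {a : κ → A} {y : κ → ℕ → O}
    (h : ∀ i, Ap ω φ (a i) (y i)) : Ap ω φ (∑ i ∈ s, a i) fun n => ∑ i ∈ s, y i n := by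
  classical
  induction s using Finset.induction_on with
  | empty => simpa [Ap] using hφ.2.2.1 0 0
  | insert i s hi ih => simpa only [sum_insert hi] using (h i).add hφ ih

theorem Ap.mul (h : Ap ω φ a y) (h' : Ap ω φ a' y') : Ap ω φ (a * a') fun n => y n * y' n := by
  have := ((hφ.2.2.2.1 a a').add (Tendsto.mul h (hφ.2.2.2.2.2.2 a'))).add ((h.norm hφ).mul h')
  simp only [mul_zero, zero_mul, add_zero] at this
  refine squeeze_zero (fun _ => norm_nonneg _) (fun n => ?_) this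
  have e : φ n (a * a') - y n * y' n = φ n (a * a') - φ n a * φ n a' + (φ n a - y n) * φ n a' +
      y n * (φ n a' - y' n) := by rw [sub_mul, mul_sub]; abel
  rw [e]
  exact norm_add₃_le.trans (by gcongr <;> exact norm_mul_le _ _)

theorem Ap.star (h : Ap ω φ a y) : Ap ω φ (star a) fun n => star (y n) := by
  have := (hφ.2.2.2.2.1 a).add h
  simp only [add_zero] at this
  refine squeeze_zero (fun _ => norm_nonneg _) (fun n => ?_) this
  rw [← norm_star (φ n a - y n), star_sub]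
  exact norm_sub_le_norm_sub_add_norm_sub _ _ _

omit hφ in
theorem Ap.uniq (h : Ap ω φ a y) (h' : Ap ω φ a y') :
    Tendsto (fun n => ‖y n - y' n‖) ω (𝓝 0) := by
  have := Tendsto.add h h'
  simp only [add_zero] at this
  refine squeeze_zero (fun _ => norm_nonneg _) (fun n => ?_) this
  rw [norm_sub_rev (φ n a) (y n)]
  exact norm_sub_le_norm_sub_add_norm_sub _ _ _

theorem exists_ap (ha : ‖a‖ ≤ 1) : ∃ y : ℕ → O, (∀ n, ‖y n‖ ≤ 1) ∧ Ap ω φ a y := by
  refine ⟨fun n => (max 1 ‖φ n a‖)⁻¹ • φ n a, fun n => ?_, ?_⟩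
  · rw [norm_smul, norm_inv, Real.norm_of_nonneg (by positivity)]
    exact inv_mul_le_one_of_le₀ (le_max_right _ _) (by positivity)
  · have h := hφ.2.2.2.2.2.2 a
    have h1 := ((tendsto_const_nhds (x := (1 : ℝ))).sub
      ((tendsto_const_nhds.max h).inv₀ (by positivity : max 1 ‖a‖ ≠ 0))).norm.mul h
    rw [max_eq_left ha, inv_one, sub_self, norm_zero, zero_mul] at h1
    refine h1.congr fun n => ?_
    rw [← norm_smul, sub_smul, one_smul]

theorem exists_lifts [Nontrivial O] {G : Type*} [Group G] (u : G →* unitary A) :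
    ∃ v : G → ℕ → O, (∀ g n, ‖v g n‖ ≤ 1) ∧ (∀ n, v 1 n = 1) ∧ ∀ g, Ap ω φ (u g) (v g) := by
  have key : ∀ g : G, ∃ y : ℕ → O, (∀ n, ‖y n‖ ≤ 1) ∧ (g = 1 → ∀ n, y n = 1) ∧ Ap ω φ (u g) y := by
    intro g
    by_cases hg : g = 1
    · refine ⟨fun _ => 1, fun _ => norm_one.le, fun _ _ => rfl, ?_⟩
      rw [hg, map_one]
      exact hφ.2.2.2.2.2.1
    · obtain ⟨y, h1, h2⟩ := exists_ap hφ (a := u g) (by
        rcases subsingleton_or_nontrivial A with hA | hA
        · simp [Subsingleton.elim (u g : A) 0]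
        · exact (CStarRing.norm_coe_unitary _).le)
      exact ⟨y, h1, fun h => (hg h).elim, h2⟩
  choose v h1 h2 h3 using key
  exact ⟨v, h1, h2 1 rfl, h3⟩

end Ap

theorem main : ∃ (Γ : Type) (_ : Group Γ) (_ : Countable Γ) (A : Type) (_ : CStarAlgebra A)
    (u : Γ →* unitary A), IsFullGroupCStar A u ∧
      ∃ (O : Type) (_ : CStarAlgebra O) (s₁ s₂ : O), IsCuntzTwo O s₁ s₂ ∧
        ∀ ω : Ultrafilter ℕ, (∀ n : ℕ, (ω : Filter ℕ) ≠ pure n) →
          ¬ ∃ φ : ℕ → A → O, IsUltrapowerEmbedding ω A O φ := by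
  obtain ⟨p, hp, hpr⟩ := Nat.exists_infinite_primes 25
  have : Fact p.Prime := ⟨hpr⟩
  obtain ⟨G, _, _, S, t, Y, _, y, hr, hta, htd, hc, ha, hd, hy⟩ := exists_group p
  obtain ⟨A, _, u, hu⟩ := exists_group_cstar G
  obtain ⟨O, _, s₁, s₂, hO⟩ := exists_cuntz
  refine ⟨G, inferInstance, inferInstance, A, inferInstance, u, hu, O, inferInstance, s₁, s₂, hO,
    fun ω hω ⟨φ, hφ⟩ => ?_⟩
  have hω' : (ω : Filter ℕ) ≤ atTop := by
    rw [← Nat.cofinite_eq_atTop]
    exact ω.le_cofinite_or_eq_pure.resolve_right fun ⟨n, hn⟩ => hω n (by rw [hn]; rfl)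
  have := nontrivial_cuntz hO
  obtain ⟨v, hv, hv1, hvu⟩ := exists_lifts hφ u
  choose K _ _ _ π x hx hπ using fun n => exists_rep O (Yop p S fun g => v g n)
  have hπle : ∀ n a, ‖π n a‖ ≤ ‖a‖ := fun n a => NonUnitalStarAlgHom.norm_apply_le (π n) a
  let U : AR ω G K :=
    { ρ := fun n g => π n (v g n)
      le := fun g n => (hπle n _).trans (hv g n)
      one := fun n => by rw [hv1, map_one]
      mul := fun g h => squeeze_zero (fun _ => norm_nonneg _)
        (fun n => by rw [← map_mul, ← map_sub]; exact hπle n _)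
        ((hvu (g * h)).uniq (by rw [map_mul]; exact (hvu g).mul hφ (hvu h)))
      star := fun g => squeeze_zero (fun _ => norm_nonneg _)
        (fun n => by rw [← map_star, ← map_sub]; exact hπle n _)
        ((hvu g⁻¹).uniq (by rw [map_inv]; exact (hvu g).star hφ)) }
  have h0 : ∀ᶠ n in ω, Low p U S n (0 + 1) := by
    let ξ : Bd fun n => L2 (XX p 0) (K n) := ⟨fun n => WithLp.toLp 2 fun _ => x n, 1, fun n => by
      simp [PiLp.norm_eq_of_L2, hx]⟩
    have hξ : ‖umk ω ξ‖ = 1 := tendsto_nhds_unique (tendsto_norm ω ξ)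
      (tendsto_const_nhds.congr fun n => by simp [ξ, PiLp.norm_eq_of_L2, hx])
    set ρ := (lev p U fun _ => 0).rep
    have hY : Ap ω φ (Yop p S fun g => (u g : A)) fun n => Yop p S fun g => v g n :=
      (hvu _).add hφ (((((hvu _).add hφ (hvu _)).add hφ (hvu _)).add hφ (hvu _)).add hφ
        ((hvu _).sub hφ ((Ap.sum hφ _ fun j => hvu _).smul hφ _)))
    have h6 : 6 ≤ ‖Yop p S fun g => ρ.R (g, 1) (umk ω ξ)‖ := by
      refine (six_le hu hr hc ha hd hy).trans_eq ?_
      simp only [ρ, AR.rep_mk, ← map_Yop p S (umk ω)]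
      refine tendsto_nhds_unique (hY.norm hφ) ((tendsto_norm ω _).congr fun n => ?_)
      have e1 := fun w => map_Yop p S ((PiLp.projₗ 2 (𝕜 := ℂ) (fun _ : XX p 0 => K n) w) ∘ₗ
        LinearMap.proj n ∘ₗ (Bd fun n => L2 (XX p 0) (K n)).subtype)
        fun g => (lev p U fun _ => 0).app (g, 1) ξ
      have e2 := map_Yop p S (ContinuousLinearMap.apply ℂ _ (x n)) fun g => π n (v g n)
      rw [← hπ, map_Yop, ← ContinuousLinearMap.apply_apply (𝕜 := ℂ), e2, PiLp.norm_eq_of_L2,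
        Fintype.sum_unique, Real.sqrt_sq (norm_nonneg _)]
      simp only [LinearMap.comp_apply, PiLp.projₗ_apply, LinearMap.proj_apply,
        Submodule.subtype_apply, AR.app_apply] at e1
      rw [e1]
      rfl
    have hP : (p : ℂ)⁻¹ • ∑ j ∈ range p, ρ.R (S none ^ j, 1) (umk ω ξ) =
        ρ.P p (S none, 1) (umk ω ξ) := by simp [URep.P_apply]
    have h1 : ρ.R (1, 1) (umk ω ξ) = umk ω ξ := by
      rw [show ((1, 1) : G × ∀ _ : ℕ, Equiv.Perm (XX p 0)) = 1 from rfl, map_one,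
        Module.End.one_apply]
    rw [Yop, hP, h1] at h6
    obtain ⟨e0, e1, e2, e3, e4⟩ := tight hξ.le ((ρ.norm_R _ _).trans hξ).le
      ((ρ.norm_R _ _).trans hξ).le ((ρ.norm_R _ _).trans hξ).le ((ρ.norm_R _ _).trans hξ).le
      ((ρ.norm_sub_P_le (Prod.ext (hr.pow none) (one_pow p)) _).trans hξ.le) h6
    refine start U hr hc (y := umk ω ξ) (by rw [← norm_ne_zero_iff, hξ]; exact one_ne_zero)
      (fun i => ?_) e3 (sub_eq_self.1 e4)
    fin_cases i
    exacts [e0, e1, e2]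
  have hk : ∀ n, ∃ k, ¬ Low p U S n (k + 1) := fun n => by
    obtain ⟨k, hk⟩ := nuc_bound hp hO (π n) (fun i j => v (S i ^ j) n) fun i j => hv _ n
    exact ⟨k, fun ⟨ξ, hξ⟩ => (hk ξ).not_gt hξ⟩
  classical
  have h1 : ∀ᶠ n in ω, Nat.find (hk n) - 1 + 1 = Nat.find (hk n) := h0.mono fun n hn => by
    have : Nat.find (hk n) ≠ 0 := fun h => Nat.find_spec (hk n) (by rwa [h])
    omega
  have h2 := step (k := fun n => Nat.find (hk n) - 1) U hp hω' hr hta htd hc
    (h1.mono fun n hn => not_not.1 (Nat.find_min (hk n) (by omega)))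
  obtain ⟨n, hn, hn'⟩ := (h1.and h2).exists
  rw [hn] at hn'
  exact Nat.find_spec (hk n) hn'

end Crest.Agent.R73
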